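import Vale.Agent.P048.Sat.Z6x15.Db0

namespace Vale.Agent.P048.Sat.Z6x15

open Vale.Agent.P048.Sat Vale.Agent.P048.Sat.Fast

noncomputable def s3_5 (i sh : Nat) : Nat := Bool.rec (Nat.shiftRight leaf3 sh) (Nat.shiftRight leaf4 sh) (Nat.ble 4 i)
noncomputable def s2_5 (i sh : Nat) : Nat := Bool.rec (Nat.shiftRight leaf2 sh) (s3_5 i sh) (Nat.ble 3 i)
noncomputable def s1_5 (i sh : Nat) : Nat := Bool.rec (Nat.shiftRight leaf1 sh) (s2_5 i sh) (Nat.ble 2 i)
noncomputable def s0_5 (i sh : Nat) : Nat := Bool.rec (Nat.shiftRight leaf0 sh) (s1_5 i sh) (Nat.ble 1 i)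
noncomputable def s6_8 (i sh : Nat) : Nat := Bool.rec (Nat.shiftRight leaf6 sh) (Nat.shiftRight leaf7 sh) (Nat.ble 7 i)
noncomputable def s5_8 (i sh : Nat) : Nat := Bool.rec (Nat.shiftRight leaf5 sh) (s6_8 i sh) (Nat.ble 6 i)
noncomputable def s9_11 (i sh : Nat) : Nat := Bool.rec (Nat.shiftRight leaf9 sh) (Nat.shiftRight leaf10 sh) (Nat.ble 10 i)
noncomputable def s8_11 (i sh : Nat) : Nat := Bool.rec (Nat.shiftRight leaf8 sh) (s9_11 i sh) (Nat.ble 9 i)
noncomputable def s11_13 (i sh : Nat) : Nat := Bool.rec (Nat.shiftRight leaf11 sh) (Nat.shiftRight leaf12 sh) (Nat.ble 12 i)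
noncomputable def s13_15 (i sh : Nat) : Nat := Bool.rec (Nat.shiftRight leaf13 sh) (Nat.shiftRight leaf14 sh) (Nat.ble 14 i)
noncomputable def s16_18 (i sh : Nat) : Nat := Bool.rec (Nat.shiftRight leaf16 sh) (Nat.shiftRight leaf17 sh) (Nat.ble 17 i)
noncomputable def s15_18 (i sh : Nat) : Nat := Bool.rec (Nat.shiftRight leaf15 sh) (s16_18 i sh) (Nat.ble 16 i)
noncomputable def s13_18 (i sh : Nat) : Nat := Bool.rec (s13_15 i sh) (s15_18 i sh) (Nat.ble 15 i)
noncomputable def s11_18 (i sh : Nat) : Nat := Bool.rec (s11_13 i sh) (s13_18 i sh) (Nat.ble 13 i)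
noncomputable def s8_18 (i sh : Nat) : Nat := Bool.rec (s8_11 i sh) (s11_18 i sh) (Nat.ble 11 i)
noncomputable def s5_18 (i sh : Nat) : Nat := Bool.rec (s5_8 i sh) (s8_18 i sh) (Nat.ble 8 i)
noncomputable def s18_20 (i sh : Nat) : Nat := Bool.rec (Nat.shiftRight leaf18 sh) (Nat.shiftRight leaf19 sh) (Nat.ble 19 i)
noncomputable def s20_22 (i sh : Nat) : Nat := Bool.rec (Nat.shiftRight leaf20 sh) (Nat.shiftRight leaf21 sh) (Nat.ble 21 i)
noncomputable def s18_22 (i sh : Nat) : Nat := Bool.rec (s18_20 i sh) (s20_22 i sh) (Nat.ble 20 i)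
noncomputable def s22_24 (i sh : Nat) : Nat := Bool.rec (Nat.shiftRight leaf22 sh) (Nat.shiftRight leaf23 sh) (Nat.ble 23 i)
noncomputable def s24_26 (i sh : Nat) : Nat := Bool.rec (Nat.shiftRight leaf24 sh) (Nat.shiftRight leaf25 sh) (Nat.ble 25 i)
noncomputable def s24_27 (i sh : Nat) : Nat := Bool.rec (s24_26 i sh) (Nat.shiftRight leaf26 sh) (Nat.ble 26 i)
noncomputable def s22_27 (i sh : Nat) : Nat := Bool.rec (s22_24 i sh) (s24_27 i sh) (Nat.ble 24 i)
noncomputable def s18_27 (i sh : Nat) : Nat := Bool.rec (s18_22 i sh) (s22_27 i sh) (Nat.ble 22 i)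
noncomputable def s5_27 (i sh : Nat) : Nat := Bool.rec (s5_18 i sh) (s18_27 i sh) (Nat.ble 18 i)
noncomputable def s27_29 (i sh : Nat) : Nat := Bool.rec (Nat.shiftRight leaf27 sh) (Nat.shiftRight leaf28 sh) (Nat.ble 28 i)
noncomputable def s29_31 (i sh : Nat) : Nat := Bool.rec (Nat.shiftRight leaf29 sh) (Nat.shiftRight leaf30 sh) (Nat.ble 30 i)
noncomputable def s29_32 (i sh : Nat) : Nat := Bool.rec (s29_31 i sh) (Nat.shiftRight leaf31 sh) (Nat.ble 31 i)
noncomputable def s33_35 (i sh : Nat) : Nat := Bool.rec (Nat.shiftRight leaf33 sh) (Nat.shiftRight leaf34 sh) (Nat.ble 34 i)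
noncomputable def s32_35 (i sh : Nat) : Nat := Bool.rec (Nat.shiftRight leaf32 sh) (s33_35 i sh) (Nat.ble 33 i)
noncomputable def s29_35 (i sh : Nat) : Nat := Bool.rec (s29_32 i sh) (s32_35 i sh) (Nat.ble 32 i)
noncomputable def s27_35 (i sh : Nat) : Nat := Bool.rec (s27_29 i sh) (s29_35 i sh) (Nat.ble 29 i)
noncomputable def s35_37 (i sh : Nat) : Nat := Bool.rec (Nat.shiftRight leaf35 sh) (Nat.shiftRight leaf36 sh) (Nat.ble 36 i)
noncomputable def s35_38 (i sh : Nat) : Nat := Bool.rec (s35_37 i sh) (Nat.shiftRight leaf37 sh) (Nat.ble 37 i)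
noncomputable def s38_40 (i sh : Nat) : Nat := Bool.rec (Nat.shiftRight leaf38 sh) (Nat.shiftRight leaf39 sh) (Nat.ble 39 i)
noncomputable def s35_40 (i sh : Nat) : Nat := Bool.rec (s35_38 i sh) (s38_40 i sh) (Nat.ble 38 i)
noncomputable def s40_42 (i sh : Nat) : Nat := Bool.rec (Nat.shiftRight leaf40 sh) (Nat.shiftRight leaf41 sh) (Nat.ble 41 i)
noncomputable def s43_45 (i sh : Nat) : Nat := Bool.rec (Nat.shiftRight leaf43 sh) (Nat.shiftRight leaf44 sh) (Nat.ble 44 i)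
noncomputable def s42_45 (i sh : Nat) : Nat := Bool.rec (Nat.shiftRight leaf42 sh) (s43_45 i sh) (Nat.ble 43 i)
noncomputable def s45_47 (i sh : Nat) : Nat := Bool.rec (Nat.shiftRight leaf45 sh) (Nat.shiftRight leaf46 sh) (Nat.ble 46 i)
noncomputable def s42_47 (i sh : Nat) : Nat := Bool.rec (s42_45 i sh) (s45_47 i sh) (Nat.ble 45 i)
noncomputable def s40_47 (i sh : Nat) : Nat := Bool.rec (s40_42 i sh) (s42_47 i sh) (Nat.ble 42 i)
noncomputable def s35_47 (i sh : Nat) : Nat := Bool.rec (s35_40 i sh) (s40_47 i sh) (Nat.ble 40 i)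
noncomputable def s27_47 (i sh : Nat) : Nat := Bool.rec (s27_35 i sh) (s35_47 i sh) (Nat.ble 35 i)
noncomputable def s5_47 (i sh : Nat) : Nat := Bool.rec (s5_27 i sh) (s27_47 i sh) (Nat.ble 27 i)
noncomputable def s0_47 (i sh : Nat) : Nat := Bool.rec (s0_5 i sh) (s5_47 i sh) (Nat.ble 5 i)

noncomputable def sel (i sh : Nat) : Nat :=
  s0_47 i sh

noncomputable def cls (id : Nat) : Nat :=
  Nat.land (sel (Nat.shiftRight id 6) (Nat.mul (Nat.land id 63) 576)) 247330401473104534060502521019647190035131349101211839914063056092897225106531867170316401061243044989597671426016139339351365034306751209967546155101893167916606772148699135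

def sp : Spec := ⟨21, 6, 15, true, 15, true, 12, 14, 0, 0, 256⟩

end Vale.Agent.P048.Sat.Z6x15
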